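import Vale.Agent.P307.CutDown

set_option autoImplicit false

namespace Vale.Agent.P307

open FirstOrder Language Cardinal Structure

universe u

variable {L : FirstOrder.Language.{u, u}}

lemma mk_fib_equiv {M N : Type u} [L.Structure M] [L.Structure N] (e : M ≃[L] N)
    (t : Set (L.Relations 1)) : #(Fib L M t) = #(Fib L N t) := by
  apply Cardinal.mk_congr
  exact Equiv.subtypeEquiv e.toEquiv (fun x => by
    change col L M x = t ↔ col L N (e x) = t
    rw [col_equiv])

lemma mk_fib_le_of_emb {M N : Type u} [L.Structure M] [L.Structure N] (f : M ↪[L] N)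
    (t : Set (L.Relations 1)) : #(Fib L M t) ≤ #(Fib L N t) := by
  refine Cardinal.mk_le_of_injective
    (f := fun x : Fib L M t => (⟨f x.1, by rw [col_emb]; exact x.2⟩ : Fib L N t)) ?_
  intro x y h
  have h' : f x.1 = f y.1 := congrArg Subtype.val h
  exact Subtype.ext (f.injective h')

lemma iso_of_fib (hL : IsMonadic L) {M N : Type u} [L.Structure M] [L.Structure N]
    (h : ∀ t, #(Fib L M t) = #(Fib L N t)) : Nonempty (M ≃[L] N) := by
  obtain ⟨θ, h1, h2⟩ := exists_fiber_embedding (col L M) (col L N) (fun t => (h t).le)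
  have hsurj : Function.Surjective θ := fun b => h2 _ (h _) b rfl
  exact ⟨equivOfCol hL (Equiv.ofBijective θ ⟨θ.injective, hsurj⟩) h1⟩

theorem cut_down' (hL : IsMonadic L) (K : AEC L) (lam : Cardinal.{u}) (hLS : K.HasLS lam)
    {P M : Type u} [L.Structure P] [L.Structure M] (hM : K.mem M) (f : P ↪[L] M)
    (hf : ∀ t, (∀ x, col L M x = t → x ∈ Set.range f) ∨ lam < #(Fib L P t)) : K.emb f := by
  have hY : K.emb f.toHom.range.subtype := by
    apply cut_down hL K lam hLS hM
    intro t
    rcases hf t with h | h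
    · left
      intro x hx
      obtain ⟨p, rfl⟩ := h x hx
      exact ⟨p, rfl⟩
    · right
      rwa [← mk_fib_equiv f.equivRange t]
  have hYm := (K.emb_mem _ hY).1
  have hP := (K.iso f.equivRange.symm hYm).1
  have he := (K.iso f.equivRange hP).2
  have := K.trans _ _ he hY
  rwa [Embedding.subtype_equivRange] at this

/-- The elements of colour `t` of a substructure, as a subset of the ambient structure. -/
def FS {M : Type u} [L.Structure M] (S : L.Substructure M) (t : Set (L.Relations 1)) : Set M :=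
  {x | x ∈ S ∧ col L M x = t}

lemma mk_fib_sub {M : Type u} [L.Structure M] (S : L.Substructure M) (t : Set (L.Relations 1)) :
    #(Fib L S t) = #(FS S t) := by
  apply Cardinal.mk_congr
  exact
    { toFun := fun y => ⟨y.1.1, y.1.2, by rw [← col_sub]; exact y.2⟩
      invFun := fun x => ⟨⟨x.1, x.2.1⟩, by rw [col_sub]; exact x.2.2⟩
      left_inv := fun y => rfl
      right_inv := fun x => rfl }

theorem blow_up (hL : IsMonadic L) (K : AEC L) (lam : Cardinal.{u}) (hLS : K.HasLS lam)
    {P M' : Type u} [L.Structure P] [L.Structure M'] (hP : K.mem P) (f : P ↪[L] M')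
    (hf : ∀ x, x ∉ Set.range f → lam < #(Fib L P (col L M' x))) : K.mem M' := by
  classical
  have hlam : ℵ₀ ≤ lam := hLS.1
  let R : L.Substructure M' := f.toHom.range
  have hR : ∀ x, x ∈ R ↔ x ∈ Set.range f := fun x => Iff.rfl
  have hPR : ∀ t, #(Fib L P t) = #(FS R t) := fun t => by
    rw [mk_fib_equiv f.equivRange t, mk_fib_sub]
  let T : Finset M' → L.Substructure M' := fun F => subOfSet hL ((R : Set M') ∪ F)
  have hRT : ∀ F, R ≤ T F := fun F x hx => Or.inl hx
  have hfibT : ∀ F t, #(Fib L (T F) t) = #(Fib L P t) := by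
    intro F t
    rw [mk_fib_sub, hPR]
    apply le_antisymm
    · by_cases hG : ∃ x ∈ F, x ∉ R ∧ col L M' x = t
      · obtain ⟨x, hxF, hxR, hxt⟩ := hG
        have big : lam < #(FS R t) := by
          rw [← hPR, ← hxt]
          exact hf x hxR
        have hsub : FS (T F) t ⊆ FS R t ∪ (F : Set M') := by
          rintro y ⟨hy, hyt⟩
          rcases hy with hy | hy
          · exact Or.inl ⟨hy, hyt⟩
          · exact Or.inr hy
        calc #(FS (T F) t) ≤ #(FS R t ∪ (F : Set M') : Set M') := Cardinal.mk_le_mk_of_subset hsub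
          _ ≤ #(FS R t) + #(F : Set M') := Cardinal.mk_union_le _ _
          _ = #(FS R t) := Cardinal.add_eq_left (hlam.trans big.le)
              ((Cardinal.lt_aleph0_of_finite _).le.trans (hlam.trans big.le))
      · apply Cardinal.mk_le_mk_of_subset
        rintro y ⟨hy, hyt⟩
        rcases hy with hy | hy
        · exact ⟨hy, hyt⟩
        · by_contra hcon
          exact hG ⟨y, hy, fun h => hcon ⟨h, hyt⟩, hyt⟩
    · apply Cardinal.mk_le_mk_of_subset
      rintro y ⟨hy, hyt⟩
      exact ⟨hRT F hy, hyt⟩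
  have hmemT : ∀ F, K.mem (T F) := by
    intro F
    obtain ⟨e⟩ := iso_of_fib hL (M := P) (N := T F) (fun t => (hfibT F t).symm)
    exact (K.iso e hP).1
  let D : Set (L.Substructure M') := Set.range T
  have hne : D.Nonempty := ⟨T ∅, ∅, rfl⟩
  have hdir : DirectedOn (· ≤ ·) D := by
    rintro _ ⟨F1, rfl⟩ _ ⟨F2, rfl⟩
    refine ⟨T (F1 ∪ F2), ⟨_, rfl⟩, ?_, ?_⟩
    · rintro x (hx | hx)
      · exact Or.inl hx
      · exact Or.inr (by simpa using Or.inl hx)
    · rintro x (hx | hx)
      · exact Or.inl hx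
      · exact Or.inr (by simpa using Or.inr hx)
  have hcoh : Coh K D := by
    rintro _ ⟨F1, rfl⟩ _ ⟨F2, rfl⟩ h
    apply cut_down' hL K lam hLS (hmemT F2)
    intro t
    by_cases hall : ∀ x : T F2, col L (T F2) x = t → x ∈ Set.range (Substructure.inclusion h)
    · exact Or.inl hall
    · right
      push Not at hall
      obtain ⟨x, hxt, hx⟩ := hall
      have hxR : x.1 ∉ Set.range f := by
        intro hxR
        exact hx ⟨⟨x.1, hRT F1 hxR⟩, rfl⟩
      rw [hfibT, ← hxt, col_sub]
      exact hf x.1 hxR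
  have hlub : IsLUB D ⊤ := by
    refine ⟨fun S _ => le_top, fun B hB x _ => ?_⟩
    exact hB ⟨{x}, rfl⟩ (Or.inr (by simp))
  have h1 := (directed_union K D ⊤ hne hdir hcoh hlub).1 (T ∅) ⟨∅, rfl⟩ le_top
  exact (K.iso Substructure.topEquiv (K.emb_mem _ h1).2).1

end Vale.Agent.P307
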