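import Vale.Agent.P307.Monadic

set_option autoImplicit false

namespace Vale.Agent.P307

open FirstOrder Language Cardinal Structure

universe u

variable {L : FirstOrder.Language.{u, u}}

lemma emb_of_comp_equiv (K : AEC L) {M M' N : Type u} [L.Structure M] [L.Structure M']
    [L.Structure N] (f : M ↪[L] N) (hf : K.emb f) (e : M ≃[L] M') (g : M' ↪[L] N)
    (h : g.comp e.toEmbedding = f) : K.emb g := by
  have hM := (K.emb_mem f hf).1
  have hM' := (K.iso e hM).1
  have he' := (K.iso e.symm hM').2
  have hg : g = f.comp e.symm.toEmbedding := by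
    ext x
    rw [← h]
    simp
  rw [hg]
  exact K.trans _ _ he' hf

lemma col_sub {M : Type u} [L.Structure M] (Y : L.Substructure M) (y : Y) :
    col L Y y = col L M y.1 := (col_emb Y.subtype y).symm

theorem cut_down (hL : IsMonadic L) (K : AEC L) (lam : Cardinal.{u}) (hLS : K.HasLS lam)
    {M : Type u} [L.Structure M] (hM : K.mem M) (Y : L.Substructure M)
    (hY : ∀ t, (∀ x, col L M x = t → x ∈ Y) ∨ lam < #(Fib L Y t)) : K.emb Y.subtype := by
  classical
  obtain ⟨hlam, -, hls⟩ := hLS
  have key : ∀ Z : Set M, Z ⊆ Y → #Z ≤ lam →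
      ∃ S : L.Substructure M, S ≤ Y ∧ #S ≤ lam ∧ K.emb S.subtype ∧ Z ⊆ S := by
    intro Z hZY hZ
    obtain ⟨N0, hZN, hN0, hN0card⟩ := hls M hM Z
    have hN0lam : #N0 ≤ lam := by
      refine hN0card.trans ?_
      calc #Z + lam ≤ lam + lam := by gcongr
        _ = lam := Cardinal.add_eq_self hlam
    let A : Set M := {x | x ∈ N0 ∧ x ∉ Y}
    let B : Set M := {x | x ∈ Y ∧ x ∉ N0}
    have hfib : ∀ t, #{a : A // col L M a.1 = t} ≤ #{b : B // col L M b.1 = t} := by
      intro t
      by_cases hne : Nonempty {a : A // col L M a.1 = t}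
      · obtain ⟨⟨a, ha⟩⟩ := hne
        have hbig : lam < #(Fib L Y t) := by
          rcases hY t with h | h
          · exact absurd (h a.1 ha) a.2.2
          · exact h
        have h1 : #{a : A // col L M a.1 = t} ≤ lam := by
          refine le_trans ?_ hN0lam
          refine Cardinal.mk_le_of_injective (f := fun a => (⟨a.1.1, a.1.2.1⟩ : N0)) ?_
          intro a a' h
          have h' : a.1.1 = a'.1.1 := congrArg (fun z : N0 => z.1) h
          exact Subtype.ext (Subtype.ext h')
        have h2 : #(Fib L Y t) ≤ #{b : B // col L M b.1 = t} + #N0 := by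
          rw [Cardinal.add_def]
          refine Cardinal.mk_le_of_injective
            (f := fun y : Fib L Y t => if h : y.1.1 ∈ N0 then Sum.inr (⟨y.1.1, h⟩ : N0)
              else Sum.inl ⟨⟨y.1.1, y.1.2, h⟩, by rw [← col_sub]; exact y.2⟩) ?_
          intro y y' h
          by_cases hy : y.1.1 ∈ N0 <;> by_cases hy' : y'.1.1 ∈ N0
          · simp only [dif_pos hy, dif_pos hy'] at h
            have h' : y.1.1 = y'.1.1 := congrArg (fun z : N0 => z.1) (Sum.inr.inj h)
            exact Subtype.ext (Subtype.ext h')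
          · simp only [dif_pos hy, dif_neg hy'] at h
            exact absurd h (by simp)
          · simp only [dif_neg hy, dif_pos hy'] at h
            exact absurd h (by simp)
          · simp only [dif_neg hy, dif_neg hy'] at h
            have := congrArg (fun z => z.1.1) (Sum.inl.inj h)
            exact Subtype.ext (Subtype.ext this)
        by_contra hcon
        rw [not_le] at hcon
        have h3 : #(Fib L Y t) ≤ lam := by
          calc #(Fib L Y t) ≤ #{b : B // col L M b.1 = t} + #N0 := h2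
            _ ≤ lam + lam := add_le_add (hcon.le.trans h1) hN0lam
            _ = lam := Cardinal.add_eq_self hlam
        exact absurd hbig (not_lt.2 h3)
      · rw [not_nonempty_iff] at hne
        rw [Cardinal.mk_eq_zero]
        exact zero_le
    obtain ⟨θ, hθcol, -⟩ := exists_fiber_embedding (fun a : A => col L M a.1)
      (fun b : B => col L M b.1) hfib
    obtain ⟨σ, hσ1, hσ2, hσ3⟩ := exists_swap A (fun a => (θ a).1)
      (fun a a' h => θ.injective (Subtype.ext h)) (fun a h => h.2 (θ a).2.1)
    have hσcol : ∀ x, col L M (σ x) = col L M x := by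
      intro x
      by_cases hx : x ∈ A
      · rw [hσ1 ⟨x, hx⟩]
        exact hθcol ⟨x, hx⟩
      · by_cases hx' : x ∈ Set.range (fun a => (θ a).1)
        · obtain ⟨a, rfl⟩ := hx'
          rw [hσ2 a]
          exact (hθcol a).symm
        · rw [hσ3 x hx hx']
    let σ' : M ≃[L] M := equivOfCol hL σ hσcol
    let S : L.Substructure M := N0.map σ'.toEmbedding.toHom
    have hfix : ∀ x ∈ N0, x ∈ Y → σ x = x := by
      intro x hx hxY
      apply hσ3 x (fun h => h.2 hxY)
      rintro ⟨a, rfl⟩
      exact (θ a).2.2 hx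
    refine ⟨S, ?_, ?_, ?_, ?_⟩
    · rintro _ ⟨x, hx, rfl⟩
      change σ x ∈ Y
      by_cases hxY : x ∈ Y
      · rw [hfix x hx hxY]; exact hxY
      · rw [hσ1 ⟨x, hx, hxY⟩]
        exact (θ _).2.1
    · rw [← (σ'.toEmbedding.substructureEquivMap N0).toEquiv.cardinal_eq]
      exact hN0lam
    · apply emb_of_comp_equiv K (σ'.toEmbedding.comp N0.subtype)
        (K.trans _ _ hN0 (K.iso σ' hM).2) (σ'.toEmbedding.substructureEquivMap N0)
      exact Embedding.subtype_substructureEquivMap _ _
    · intro z hz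
      exact ⟨z, hZN hz, hfix z (hZN hz) (hZY hz)⟩
  let D : Set (L.Substructure M) := {S | S ≤ Y ∧ #S ≤ lam ∧ K.emb S.subtype}
  have hne : D.Nonempty := by
    obtain ⟨S, h1, h2, h3, -⟩ := key ∅ (Set.empty_subset _) (by simp)
    exact ⟨S, h1, h2, h3⟩
  have hdir : DirectedOn (· ≤ ·) D := by
    rintro S1 ⟨h1, h1', h1''⟩ S2 ⟨h2, h2', h2''⟩
    obtain ⟨S, h3, h3', h3'', h4⟩ := key (S1 ∪ S2) (Set.union_subset h1 h2) (by
      calc #(S1 ∪ S2 : Set M) ≤ #S1 + #S2 := Cardinal.mk_union_le _ _
        _ ≤ lam + lam := add_le_add h1' h2'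
        _ = lam := Cardinal.add_eq_self hlam)
    exact ⟨S, ⟨h3, h3', h3''⟩, fun x hx => h4 (Or.inl hx), fun x hx => h4 (Or.inr hx)⟩
  have hcoh : Coh K D := by
    rintro S ⟨-, -, hS⟩ T ⟨-, -, hT⟩ h
    exact K.coherence (Substructure.inclusion h) T.subtype hT hS
  have hlub : IsLUB D Y := by
    constructor
    · rintro S ⟨h, -, -⟩
      exact h
    · intro B hB y hy
      obtain ⟨S, h1, h2, h3, h4⟩ := key {y} (by simpa using hy)
        (by simpa using Cardinal.one_le_aleph0.trans hlam)
      exact hB ⟨h1, h2, h3⟩ (h4 rfl)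
  apply (directed_union K D Y hne hdir hcoh hlub).2 M Y.subtype
  rintro S ⟨-, -, hS⟩ h
  exact hS

end Vale.Agent.P307
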