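import Mathlib

namespace Vale.Agent.P307

open FirstOrder Language Cardinal

universe u

/-- An abstract elementary class in the vocabulary `L`, without the Löwenheim-Skolem axiom (which is
the separate predicate `AEC.HasLS`).  `mem M` says that the `L`-structure `M` lies in the class.
`emb f`, for an `L`-embedding `f : M ↪[L] N`, says that `f` is a `K`-embedding, that is, that the
image of `f` is a strong substructure of `N` (`f[M] ≤_K N`); for a substructure `S` of `N`,
`S ≤_K N` is `emb S.subtype`. -/
structure AEC (L : FirstOrder.Language.{u, u}) where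
  /-- membership in the class -/
  mem : ∀ (M : Type u) [L.Structure M], Prop
  /-- being a `K`-embedding -/
  emb : ∀ {M N : Type u} [L.Structure M] [L.Structure N], (M ↪[L] N) → Prop
  /-- `≤_K` relates members of the class -/
  emb_mem : ∀ {M N : Type u} [L.Structure M] [L.Structure N] (f : M ↪[L] N),
    emb f → mem M ∧ mem N
  /-- closure under isomorphism, and reflexivity of `≤_K` -/
  iso : ∀ {M N : Type u} [L.Structure M] [L.Structure N] (e : M ≃[L] N),
    mem M → mem N ∧ emb e.toEmbedding
  /-- transitivity of `≤_K` -/
  trans : ∀ {M N P : Type u} [L.Structure M] [L.Structure N] [L.Structure P]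
    (f : M ↪[L] N) (g : N ↪[L] P), emb f → emb g → emb (g.comp f)
  /-- coherence -/
  coherence : ∀ {M N P : Type u} [L.Structure M] [L.Structure N] [L.Structure P]
    (f : M ↪[L] N) (g : N ↪[L] P), emb g → emb (g.comp f) → emb f
  /-- the union of a well-ordered `≤_K`-increasing chain is in the class and `≤_K`-extends each
  member of the chain -/
  chain : ∀ {ι : Type u} [LinearOrder ι] [WellFoundedLT ι] [Nonempty ι]
    {U : Type u} [L.Structure U] (S : ι → L.Substructure U) (hS : Monotone S),
    (∀ i j (h : i ≤ j), emb (Substructure.inclusion (hS h))) →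
    ∀ i, emb (Substructure.inclusion (le_iSup S i))
  /-- the union of such a chain is a strong substructure of every `N` of which all members are -/
  smooth : ∀ {ι : Type u} [LinearOrder ι] [WellFoundedLT ι] [Nonempty ι]
    {U : Type u} [L.Structure U] (S : ι → L.Substructure U) (hS : Monotone S)
    {N : Type u} [L.Structure N] (g : (⨆ i, S i : L.Substructure U) ↪[L] N),
    (∀ i j (h : i ≤ j), emb (Substructure.inclusion (hS h))) →
    (∀ i, emb (g.comp (Substructure.inclusion (le_iSup S i)))) → emb g

variable {L : FirstOrder.Language.{u, u}}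

/-- `ℓ` witnesses the Löwenheim-Skolem axiom for `K`: it is an infinite cardinal, at least the
size of the vocabulary, and every subset `A` of a member `M` lies in some `S ≤_K M` of cardinality
at most `|A| + ℓ`.  `LS(K)` is the least such `ℓ`, so `LS(K) ≤ lam` iff `HasLS ℓ` for some
`ℓ ≤ lam`. -/
def AEC.HasLS (K : AEC L) (ℓ : Cardinal.{u}) : Prop :=
  ℵ₀ ≤ ℓ ∧ L.card ≤ ℓ ∧ ∀ (M : Type u) [L.Structure M], K.mem M → ∀ A : Set M,
    ∃ S : L.Substructure M, A ⊆ S ∧ K.emb S.subtype ∧ #S ≤ #A + ℓ

/-- `K` is categorical in `κ`: it has a model of cardinality `κ`, and any two such models are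
isomorphic. -/
def AEC.CategoricalIn (K : AEC L) (κ : Cardinal.{u}) : Prop :=
  (∃ (M : Type u) (_ : L.Structure M), K.mem M ∧ #M = κ) ∧
    ∀ (M N : Type u) [L.Structure M] [L.Structure N], K.mem M → K.mem N → #M = κ → #N = κ →
      Nonempty (M ≃[L] N)

/-- The vocabulary `L` is monadic: it has no function (or constant) symbols, and all its relation
symbols are unary. -/
def IsMonadic (L : FirstOrder.Language.{u, u}) : Prop :=
  (∀ n, IsEmpty (L.Functions n)) ∧ ∀ n, n ≠ 1 → IsEmpty (L.Relations n)

end Vale.Agent.P307
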