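import Vale.Agent.P307.Defs

namespace Vale.Agent.P307

open FirstOrder Language Cardinal

universe u

lemma exists_mono_ub {α : Type*} [Preorder α] [IsDirectedOrder α] [Nonempty α] :
    ∃ ub : Finset α → α, (∀ F, ∀ a ∈ F, a ≤ ub F) ∧ ∀ F F', F ⊆ F' → ub F ≤ ub F' := by
  classical
  choose bd hbd using (Finset.exists_le : ∀ s : Finset α, ∃ M, ∀ i ∈ s, i ≤ M)
  obtain ⟨ub, hu⟩ : ∃ ub : Finset α → α, ∀ s, ub s =
      bd (s ∪ s.ssubsets.attach.image (fun t => ub t.1)) :=
    ⟨Finset.strongInduction (fun s ih =>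
        bd (s ∪ s.ssubsets.attach.image (fun t => ih t.1 (Finset.mem_ssubsets.1 t.2)))),
      fun s => Finset.strongInduction_eq _ s⟩
  have hspec : ∀ s, ∀ a ∈ (s ∪ s.ssubsets.attach.image (fun t => ub t.1)), a ≤ ub s := by
    intro s
    rw [hu s]
    exact hbd _
  refine ⟨ub, fun F a ha => hspec F a (Finset.mem_union_left _ ha), fun F F' h => ?_⟩
  rcases eq_or_ne F F' with rfl | hne
  · exact le_rfl
  · apply hspec F'
    apply Finset.mem_union_right
    rw [Finset.mem_image]
    exact ⟨⟨F, Finset.mem_ssubsets.2 (Finset.ssubset_iff_subset_ne.2 ⟨h, hne⟩)⟩,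
      Finset.mem_attach _ _, rfl⟩

lemma exists_mono_ub_family {α β : Type*} [Preorder β] (d : α → β) (hd : Directed (· ≤ ·) d)
    [Nonempty α] :
    ∃ ub : Finset α → α, (∀ F, ∀ a ∈ F, d a ≤ d (ub F)) ∧ ∀ F F', F ⊆ F' → d (ub F) ≤ d (ub F') := by
  letI : Preorder α := Preorder.lift d
  haveI : IsDirectedOrder α := ⟨hd⟩
  exact exists_mono_ub

variable {L : FirstOrder.Language.{u, u}} (K : AEC L)

/-- A family of substructures of `U` any two comparable members of which are `≤_K`-related. -/
def Coh {U : Type u} [L.Structure U] (D : Set (L.Substructure U)) : Prop :=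
  ∀ S ∈ D, ∀ T ∈ D, ∀ h : S ≤ T, K.emb (Substructure.inclusion h)

lemma card_finset_Iic_lt {c : Cardinal.{u}} (hc : ℵ₀ ≤ c) (i : c.ord.ToType) :
    #(Finset (Set.Iic i)) < c := by
  have h1 : #(Set.Iio i) < c := by
    have := Cardinal.mk_Iio_lt i (by simp)
    simpa using this
  have h2 : #(Set.Iic i) < c := by
    rw [← Set.Iio_insert]
    refine lt_of_le_of_lt Cardinal.mk_insert_le ?_
    exact Cardinal.add_lt_of_lt hc h1 (lt_of_lt_of_le Cardinal.one_lt_aleph0 hc)
  rcases finite_or_infinite (Set.Iic i) with hf | hf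
  · exact lt_of_lt_of_le (Cardinal.lt_aleph0_of_finite _) hc
  · rwa [Cardinal.mk_finset_of_infinite]

theorem directed_union_aux {U : Type u} [L.Structure U] (c : Cardinal.{u}) :
    ∀ (D : Set (L.Substructure U)) (V : L.Substructure U), #D = c → D.Nonempty →
      DirectedOn (· ≤ ·) D → Coh K D → IsLUB D V →
      (∀ S ∈ D, ∀ h : S ≤ V, K.emb (Substructure.inclusion h)) ∧
      (∀ (N : Type u) [L.Structure N] (g : V ↪[L] N),
        (∀ S ∈ D, ∀ h : S ≤ V, K.emb (g.comp (Substructure.inclusion h))) → K.emb g) := by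
  classical
  induction c using WellFoundedLT.induction with
  | ind c ih =>
  intro D V hcard hne hdir hcoh hV
  by_cases hfin : D.Finite
  · -- a finite directed family has a largest member
    haveI : Nonempty D := hne.to_subtype
    haveI : Finite D := hfin.to_subtype
    haveI : IsDirectedOrder D :=
      ⟨fun a b => by
        obtain ⟨z, hz, h1, h2⟩ := hdir a.1 a.2 b.1 b.2
        exact ⟨⟨z, hz⟩, h1, h2⟩⟩
    obtain ⟨T, hT⟩ := Finite.exists_le (fun x : D => x)
    have hVT : V = T.1 := by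
      apply le_antisymm
      · exact hV.2 (fun S hS => hT ⟨S, hS⟩)
      · exact hV.1 T.2
    subst hVT
    refine ⟨fun S hS h => hcoh S hS T.1 T.2 h, fun N _ g hg => ?_⟩
    exact hg T.1 T.2 le_rfl
  · -- infinite case
    have hinf : ℵ₀ ≤ c := by
      rw [← hcard]
      exact Cardinal.infinite_iff.1 (Set.infinite_coe_iff.2 hfin)
    let ι := c.ord.ToType
    have hι : #ι = #D := by rw [hcard]; exact Cardinal.mk_ord_toType c
    obtain ⟨e⟩ := Cardinal.eq.1 hι
    haveI : Nonempty ι := ⟨e.symm ⟨hne.some, hne.some_mem⟩⟩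
    let d : ι → L.Substructure U := fun j => (e j).1
    have hdD : ∀ j, d j ∈ D := fun j => (e j).2
    have hDd : ∀ S ∈ D, ∃ j, d j = S := fun S hS => ⟨e.symm ⟨S, hS⟩, by simp [d]⟩
    have hd : Directed (· ≤ ·) d := by
      intro a b
      obtain ⟨z, hz, h1, h2⟩ := hdir (d a) (hdD a) (d b) (hdD b)
      obtain ⟨j, rfl⟩ := hDd z hz
      exact ⟨j, h1, h2⟩
    obtain ⟨ub, hub1, hub2⟩ := exists_mono_ub_family d hd
    let D' : ι → Set (L.Substructure U) :=
      fun i => {S | ∃ F : Finset ι, (∀ j ∈ F, j ≤ i) ∧ d (ub F) = S}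
    have hD'D : ∀ i, D' i ⊆ D := by
      rintro i S ⟨F, -, rfl⟩
      exact hdD _
    have hD'mono : ∀ i j, i ≤ j → D' i ⊆ D' j := by
      rintro i j hij S ⟨F, hF, rfl⟩
      exact ⟨F, fun k hk => (hF k hk).trans hij, rfl⟩
    have hD'ne : ∀ i, (D' i).Nonempty := fun i => ⟨d (ub ∅), ∅, by simp, rfl⟩
    have hD'dir : ∀ i, DirectedOn (· ≤ ·) (D' i) := by
      rintro i _ ⟨F1, hF1, rfl⟩ _ ⟨F2, hF2, rfl⟩
      refine ⟨d (ub (F1 ∪ F2)), ⟨F1 ∪ F2, ?_, rfl⟩, hub2 _ _ Finset.subset_union_left,
        hub2 _ _ Finset.subset_union_right⟩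
      intro j hj
      rcases Finset.mem_union.1 hj with h | h
      · exact hF1 j h
      · exact hF2 j h
    have hD'coh : ∀ i, Coh K (D' i) := fun i S hS T hT h =>
      hcoh S (hD'D i hS) T (hD'D i hT) h
    have hD'card : ∀ i, #(D' i) < c := by
      intro i
      have hsub : D' i ⊆ Set.range (fun F' : Finset (Set.Iic i) =>
          d (ub (F'.map (Function.Embedding.subtype _)))) := by
        rintro S ⟨F, hF, rfl⟩
        refine ⟨F.subtype (· ∈ Set.Iic i), ?_⟩
        simp only
        rw [Finset.subtype_map_of_mem]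
        exact hF
      calc #(D' i) ≤ _ := Cardinal.mk_le_mk_of_subset hsub
        _ ≤ #(Finset (Set.Iic i)) := Cardinal.mk_range_le
        _ < c := card_finset_Iic_lt hinf i
    let V' : ι → L.Substructure U := fun i => sSup (D' i)
    have hV'mono : Monotone V' := fun i j hij => sSup_le_sSup (hD'mono i j hij)
    have IH := fun i => ih (#(D' i)) (hD'card i) (D' i) (V' i) rfl (hD'ne i) (hD'dir i)
      (hD'coh i) (isLUB_sSup _)
    have hchain : ∀ i j (h : i ≤ j), K.emb (Substructure.inclusion (hV'mono h)) := by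
      intro i j h
      apply (IH i).2
      intro S hS h'
      exact (IH j).1 S (hD'mono i j h hS) (h'.trans (hV'mono h))
    have hVeq : V = ⨆ i, V' i := by
      apply hV.unique
      constructor
      · intro S hS
        obtain ⟨j, rfl⟩ := hDd S hS
        have h1 : d j ≤ d (ub {j}) := hub1 {j} j (Finset.mem_singleton_self j)
        have h2 : d (ub {j}) ≤ V' j := le_sSup ⟨{j}, by simp, rfl⟩
        exact h1.trans (h2.trans (le_iSup V' j))
      · intro B hB
        exact iSup_le fun i => sSup_le fun S hS => hB (hD'D i hS)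
    subst hVeq
    have hch := K.chain V' hV'mono hchain
    constructor
    · intro S hS h
      obtain ⟨j, rfl⟩ := hDd S hS
      have h1 : d j ≤ d (ub {j}) := hub1 {j} j (Finset.mem_singleton_self j)
      have hmem : d (ub {j}) ∈ D' j := ⟨{j}, by simp, rfl⟩
      have h2 : d (ub {j}) ≤ V' j := le_sSup hmem
      have e1 := hcoh _ (hdD j) _ (hdD _) h1
      have e2 := (IH j).1 _ hmem h2
      have e3 := hch j
      exact K.trans _ _ (K.trans _ _ e1 e2) e3
    · intro N _ g hg
      apply K.smooth V' hV'mono g hchain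
      intro i
      apply (IH i).2
      intro S hS h'
      exact hg S (hD'D i hS) (h'.trans (le_iSup V' i))

/-- Closure of an AEC under directed unions (derived from the chain axioms). -/
theorem directed_union {U : Type u} [L.Structure U] (D : Set (L.Substructure U))
    (V : L.Substructure U) (hne : D.Nonempty) (hdir : DirectedOn (· ≤ ·) D) (hcoh : Coh K D)
    (hV : IsLUB D V) :
    (∀ S ∈ D, ∀ h : S ≤ V, K.emb (Substructure.inclusion h)) ∧
      (∀ (N : Type u) [L.Structure N] (g : V ↪[L] N),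
        (∀ S ∈ D, ∀ h : S ≤ V, K.emb (g.comp (Substructure.inclusion h))) → K.emb g) :=
  directed_union_aux K _ D V rfl hne hdir hcoh hV

end Vale.Agent.P307
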