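import Vale.Agent.P307.Directed

set_option autoImplicit false

namespace Vale.Agent.P307

open FirstOrder Language Cardinal Structure

universe u

lemma exists_fiber_embedding {A B T : Type u} (fA : A → T) (fB : B → T)
    (h : ∀ t, #{a // fA a = t} ≤ #{b // fB b = t}) :
    ∃ θ : A ↪ B, (∀ a, fB (θ a) = fA a) ∧
      ∀ t, #{a // fA a = t} = #{b // fB b = t} → ∀ b, fB b = t → b ∈ Set.range θ := by
  classical
  have h1 : ∀ t, ∃ g : {a // fA a = t} ↪ {b // fB b = t},
      (#{a // fA a = t} = #{b // fB b = t} → Function.Surjective g) := by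
    intro t
    by_cases heq : #{a // fA a = t} = #{b // fB b = t}
    · obtain ⟨e⟩ := Cardinal.eq.1 heq
      exact ⟨e.toEmbedding, fun _ => e.surjective⟩
    · obtain ⟨g⟩ := Cardinal.le_def _ _ |>.1 (h t)
      exact ⟨g, fun h' => absurd h' heq⟩
  choose g hg using h1
  have key : ∀ t (a a' : A) (ha : fA a = t) (ha' : fA a' = t),
      (g t ⟨a, ha⟩).1 = (g t ⟨a', ha'⟩).1 → a = a' := by
    intro t a a' ha ha' hh
    have := (g t).injective (Subtype.ext hh)
    exact congrArg Subtype.val this
  have hcol : ∀ a, fB (g (fA a) ⟨a, rfl⟩).1 = fA a := fun a => (g (fA a) ⟨a, rfl⟩).2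
  refine ⟨⟨fun a => (g (fA a) ⟨a, rfl⟩).1, ?_⟩, hcol, ?_⟩
  · intro a a' hh
    have hc : fA a = fA a' := by
      rw [← hcol a, ← hcol a']
      exact congrArg fB hh
    have h2 : ∀ t (ht : fA a' = t), (g (fA a') ⟨a', rfl⟩).1 = (g t ⟨a', ht⟩).1 := by
      intro t ht
      subst ht
      rfl
    simp only at hh
    rw [h2 (fA a) hc.symm] at hh
    exact key _ a a' rfl hc.symm hh
  · intro t ht b hb
    obtain ⟨⟨a, ha⟩, hab⟩ := hg t ht ⟨b, hb⟩
    refine ⟨a, ?_⟩
    subst ha
    exact congrArg Subtype.val hab

lemma exists_swap {M : Type u} (A : Set M) (θ : A → M) (hinj : Function.Injective θ)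
    (hdisj : ∀ a, θ a ∉ A) :
    ∃ σ : M ≃ M, (∀ a : A, σ a = θ a) ∧ (∀ a : A, σ (θ a) = a) ∧
      (∀ x, x ∉ A → x ∉ Set.range θ → σ x = x) := by
  classical
  let s : M → M := fun x =>
    if h : x ∈ A then θ ⟨x, h⟩ else if h' : ∃ a, θ a = x then (Classical.choose h' : A) else x
  have s1 : ∀ a : A, s a = θ a := by
    intro a
    simp only [s]
    rw [dif_pos a.2]
  have s2 : ∀ a : A, s (θ a) = a := by
    intro a
    have hex : ∃ a', θ a' = θ a := ⟨a, rfl⟩
    simp only [s]
    rw [dif_neg (hdisj a), dif_pos hex]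
    exact congrArg Subtype.val (hinj (Classical.choose_spec hex))
  have s3 : ∀ x, x ∉ A → x ∉ Set.range θ → s x = x := by
    intro x hx hx'
    have hx'' : ¬ ∃ a, θ a = x := hx'
    simp only [s]
    rw [dif_neg hx, dif_neg hx'']
  have hinv : Function.Involutive s := by
    intro x
    by_cases hx : x ∈ A
    · have := s1 ⟨x, hx⟩
      simp only at this
      rw [this, s2]
    · by_cases hx' : x ∈ Set.range θ
      · obtain ⟨a, rfl⟩ := hx'
        rw [s2, s1]
      · rw [s3 x hx hx', s3 x hx hx']
  exact ⟨hinv.toPerm, s1, s2, s3⟩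

variable (L : FirstOrder.Language.{u, u})

/-- The colour of an element of a structure: the set of unary relation symbols it satisfies. -/
def col (M : Type u) [L.Structure M] (x : M) : Set (L.Relations 1) := {R | RelMap R ![x]}

/-- The set of elements of colour `t`. -/
abbrev Fib (M : Type u) [L.Structure M] (t : Set (L.Relations 1)) : Type u :=
  {x : M // col L M x = t}

variable {L}

lemma col_emb {M N : Type u} [L.Structure M] [L.Structure N] (f : M ↪[L] N) (x : M) :
    col L N (f x) = col L M x := by
  ext R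
  have h : (f ∘ ![x] : Fin 1 → N) = ![f x] := by
    funext i
    fin_cases i
    rfl
  have := f.map_rel R ![x]
  rw [h] at this
  exact this

lemma col_equiv {M N : Type u} [L.Structure M] [L.Structure N] (f : M ≃[L] N) (x : M) :
    col L N (f x) = col L M x := col_emb f.toEmbedding x

/-- In a monadic vocabulary a colour-preserving injection is an embedding. -/
def embOfCol (hL : IsMonadic L) {M N : Type u} [L.Structure M] [L.Structure N] (f : M ↪ N)
    (hf : ∀ x, col L N (f x) = col L M x) : M ↪[L] N where
  toEmbedding := f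
  map_fun' := fun {n} φ => ((hL.1 n).false φ).elim
  map_rel' := by
    intro n r x
    by_cases hn : n = 1
    · subst hn
      have h1 : x = ![x 0] := by
        funext i
        fin_cases i
        rfl
      have h2 : (f.toFun ∘ x : Fin 1 → N) = ![f (x 0)] := by
        funext i
        fin_cases i
        rfl
      rw [h2]
      conv_rhs => rw [h1]
      have := hf (x 0)
      exact (Set.ext_iff.1 this r)
    · exact ((hL.2 n hn).false r).elim

@[simp] lemma embOfCol_apply (hL : IsMonadic L) {M N : Type u} [L.Structure M] [L.Structure N]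
    (f : M ↪ N) (hf : ∀ x, col L N (f x) = col L M x) (x : M) : embOfCol hL f hf x = f x := rfl

/-- In a monadic vocabulary a colour-preserving bijection is an isomorphism. -/
def equivOfCol (hL : IsMonadic L) {M N : Type u} [L.Structure M] [L.Structure N] (f : M ≃ N)
    (hf : ∀ x, col L N (f x) = col L M x) : M ≃[L] N where
  toEquiv := f
  map_fun' := fun {n} φ => ((hL.1 n).false φ).elim
  map_rel' := (embOfCol hL f.toEmbedding hf).map_rel'

@[simp] lemma equivOfCol_apply (hL : IsMonadic L) {M N : Type u} [L.Structure M] [L.Structure N]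
    (f : M ≃ N) (hf : ∀ x, col L N (f x) = col L M x) (x : M) : equivOfCol hL f hf x = f x := rfl

/-- In a monadic vocabulary every subset is a substructure. -/
def subOfSet (hL : IsMonadic L) {M : Type u} [L.Structure M] (A : Set M) : L.Substructure M where
  carrier := A
  fun_mem := fun {n} φ => ((hL.1 n).false φ).elim

@[simp] lemma mem_subOfSet (hL : IsMonadic L) {M : Type u} [L.Structure M] (A : Set M) (x : M) :
    x ∈ subOfSet hL A ↔ x ∈ A := Iff.rfl

/-- The structure on a type determined by a colouring. -/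
@[reducible] def structOfCol (hL : IsMonadic L) {P : Type u} (c : P → Set (L.Relations 1)) :
    L.Structure P where
  funMap := fun {n} φ => ((hL.1 n).false φ).elim
  RelMap := fun {n} r x => ∃ h : n = 1, (h ▸ r : L.Relations 1) ∈ c (x ⟨0, by omega⟩)

lemma col_structOfCol (hL : IsMonadic L) {P : Type u} (c : P → Set (L.Relations 1)) (p : P) :
    @col L P (structOfCol hL c) p = c p := by
  ext R
  constructor
  · rintro ⟨h, hR⟩
    exact hR
  · intro hR
    exact ⟨rfl, hR⟩

end Vale.Agent.P307
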