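import Vale.Agent.P307.BlowUp

set_option autoImplicit false

namespace Vale.Agent.P307

open FirstOrder Language Cardinal Structure

universe u

variable {L : FirstOrder.Language.{u, u}}

/-- Carrier of the monadic structure with prescribed multiplicities `c`. -/
abbrev PatType (c : Set (L.Relations 1) → Cardinal.{u}) : Type u :=
  Σ t : Set (L.Relations 1), (c t).out

/-- The monadic structure with prescribed multiplicities `c`. -/
@[reducible] def patStruct (hL : IsMonadic L) (c : Set (L.Relations 1) → Cardinal.{u}) :
    L.Structure (PatType c) := structOfCol hL (fun p => p.1)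

lemma mk_fib_pat (hL : IsMonadic L) (c : Set (L.Relations 1) → Cardinal.{u})
    (t : Set (L.Relations 1)) : #(@Fib L (PatType c) (patStruct hL c) t) = c t := by
  have h1 : #(@Fib L (PatType c) (patStruct hL c) t) = #{p : PatType c // p.1 = t} := by
    apply Cardinal.mk_congr
    exact Equiv.subtypeEquivRight (fun p => by rw [col_structOfCol])
  rw [h1, Cardinal.mk_congr (Equiv.sigmaSubtype t), Cardinal.mk_out]

theorem pattern_closure (hL : IsMonadic L) (K : AEC L) (lam : Cardinal.{u}) (hLS : K.HasLS lam)
    {M M' : Type u} [L.Structure M] [L.Structure M'] (hM : K.mem M)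
    (h : ∀ t, #(Fib L M t) = #(Fib L M' t) ∨ (lam < #(Fib L M t) ∧ lam < #(Fib L M' t))) :
    K.mem M' := by
  classical
  let c : Set (L.Relations 1) → Cardinal.{u} := fun t => min #(Fib L M t) #(Fib L M' t)
  letI : L.Structure (PatType c) := patStruct hL c
  have hfibP : ∀ t, #(Fib L (PatType c) t) = c t := mk_fib_pat hL c
  have hbig : ∀ t, (c t ≠ #(Fib L M t) ∨ c t ≠ #(Fib L M' t)) → lam < c t := by
    intro t ht
    rcases h t with h1 | ⟨h1, h2⟩
    · exfalso
      have : c t = #(Fib L M t) := by simp [c, h1]
      rcases ht with h3 | h3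
      · exact h3 this
      · exact h3 (this.trans h1)
    · exact lt_min h1 h2
  obtain ⟨θ, hθ1, hθ2⟩ := exists_fiber_embedding (col L (PatType c)) (col L M)
    (fun t => by
      change #(Fib L (PatType c) t) ≤ #(Fib L M t)
      rw [hfibP]; exact min_le_left _ _)
  have hP : K.mem (PatType c) := by
    have : K.emb (embOfCol hL θ hθ1) := by
      apply cut_down' hL K lam hLS hM
      intro t
      by_cases ht : c t = #(Fib L M t)
      · left
        intro x hx
        exact hθ2 t ((hfibP t).trans ht) x hx
      · right
        rw [hfibP]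
        exact hbig t (Or.inl ht)
    exact (K.emb_mem _ this).1
  obtain ⟨θ', hθ1', hθ2'⟩ := exists_fiber_embedding (col L (PatType c)) (col L M')
    (fun t => by
      change #(Fib L (PatType c) t) ≤ #(Fib L M' t)
      rw [hfibP]; exact min_le_right _ _)
  apply blow_up hL K lam hLS hP (embOfCol hL θ' hθ1')
  intro x hx
  rw [hfibP]
  apply hbig
  right
  intro ht
  exact hx (hθ2' _ ((hfibP _).trans ht) x rfl)

end Vale.Agent.P307
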