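import Vale.Agent.P307.Pattern

set_option autoImplicit false

namespace Vale.Agent.P307

open FirstOrder Language Cardinal Structure

universe u

variable {L : FirstOrder.Language.{u, u}}

lemma HasLS.mono {K : AEC L} {l lam : Cardinal.{u}} (h : K.HasLS l) (hl : l ≤ lam) :
    K.HasLS lam := by
  obtain ⟨h1, h2, h3⟩ := h
  refine ⟨h1.trans hl, h2.trans hl, fun M _ hM A => ?_⟩
  obtain ⟨S, hS1, hS2, hS3⟩ := h3 M hM A
  exact ⟨S, hS1, hS2, hS3.trans (by gcongr)⟩

lemma mk_eq_sum_fib (M : Type u) [L.Structure M] :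
    #M = Cardinal.sum (fun t => #(Fib L M t)) := by
  rw [← Cardinal.mk_sigma]
  exact Cardinal.mk_congr (Equiv.sigmaFiberEquiv (col L M)).symm

lemma mk_colours_le {lam : Cardinal.{u}} (h : L.card ≤ lam) :
    #(Set (L.Relations 1)) ≤ 2 ^ lam := by
  rw [Cardinal.mk_set]
  apply Cardinal.power_le_power_left two_ne_zero
  refine le_trans ?_ h
  refine Cardinal.mk_le_of_injective (f := fun R : L.Relations 1 =>
    (Sum.inr ⟨1, R⟩ : L.Symbols)) ?_
  intro R R' hR
  simpa using hR

lemma exists_model_with_mult (hL : IsMonadic L) (K : AEC L) (lam : Cardinal.{u})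
    (hLS : K.HasLS lam) {M : Type u} [L.Structure M] (hM : K.mem M)
    (c : Set (L.Relations 1) → Cardinal.{u})
    (h : ∀ t, #(Fib L M t) = c t ∨ (lam < #(Fib L M t) ∧ lam < c t)) :
    ∃ (Q : Type u) (_ : L.Structure Q), K.mem Q ∧ (∀ t, #(Fib L Q t) = c t) ∧
      #Q = Cardinal.sum c := by
  letI : L.Structure (PatType c) := patStruct hL c
  have hfib : ∀ t, #(Fib L (PatType c) t) = c t := mk_fib_pat hL c
  refine ⟨PatType c, inferInstance, ?_, hfib, ?_⟩
  · apply pattern_closure hL K lam hLS hM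
    intro t
    rw [hfib]
    exact h t
  · rw [Cardinal.mk_sigma]
    congr 1
    funext t
    exact Cardinal.mk_out _

lemma sum_eq_of_bounds {ι : Type u} (c : ι → Cardinal.{u}) (θ b : Cardinal.{u}) (hb : ℵ₀ ≤ b)
    (hι : #ι ≤ b) (hbθ : b < θ) (hle : ∀ t, c t ≤ θ) (t0 : ι) (h0 : c t0 = θ) :
    Cardinal.sum c = θ := by
  apply le_antisymm
  · calc Cardinal.sum c ≤ Cardinal.sum (fun _ : ι => θ) := Cardinal.sum_le_sum _ _ hle
      _ = #ι * θ := Cardinal.sum_const' _ _
      _ ≤ θ * θ := by gcongr; exact hι.trans hbθ.le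
      _ = θ := Cardinal.mul_eq_self (hb.trans hbθ.le)
  · rw [← h0]
    exact Cardinal.le_sum c t0

theorem monadic_transfer (hL : IsMonadic L) (K : AEC L) (lam : Cardinal.{u}) (hLS : K.HasLS lam)
    (κ κ' : Cardinal.{u}) (hκ : 2 ^ lam < κ) (hκ' : 2 ^ lam < κ') (hcat : K.CategoricalIn κ) :
    K.CategoricalIn κ' := by
  classical
  have hlam : ℵ₀ ≤ lam := hLS.1
  have hT : #(Set (L.Relations 1)) ≤ 2 ^ lam := mk_colours_le hLS.2.1
  have hlt : lam < 2 ^ lam := Cardinal.cantor lam
  have h2 : ℵ₀ ≤ (2 : Cardinal.{u}) ^ lam := hlam.trans hlt.le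
  -- E1 : a model of size > 2^lam has a big colour
  have E1 : ∀ (M : Type u) [L.Structure M], 2 ^ lam < #M → ∃ t, lam < #(Fib L M t) := by
    intro M _ hM
    by_contra hcon
    push Not at hcon
    have : #M ≤ 2 ^ lam := by
      rw [mk_eq_sum_fib (L := L) M]
      calc Cardinal.sum (fun t => #(Fib L M t))
          ≤ Cardinal.sum (fun _ : Set (L.Relations 1) => lam) := Cardinal.sum_le_sum _ _ hcon
        _ = #(Set (L.Relations 1)) * lam := Cardinal.sum_const' _ _
        _ ≤ 2 ^ lam * 2 ^ lam := mul_le_mul' hT hlt.le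
        _ = 2 ^ lam := Cardinal.mul_eq_self h2
    exact absurd hM (not_lt.2 this)
  -- the multiplicities obtained by changing all big colours to θ
  let re : ∀ (M : Type u) [L.Structure M], Cardinal.{u} → Set (L.Relations 1) → Cardinal.{u} :=
    fun M _ θ t => if lam < #(Fib L M t) then θ else #(Fib L M t)
  have E2 : ∀ (M : Type u) [L.Structure M], K.mem M → 2 ^ lam < #M → ∀ θ, 2 ^ lam < θ →
      ∃ (Q : Type u) (_ : L.Structure Q), K.mem Q ∧ (∀ t, #(Fib L Q t) = re M θ t) ∧ #Q = θ := by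
    intro M _ hM hMbig θ hθ
    obtain ⟨Q, iQ, hQ1, hQ2, hQ3⟩ := exists_model_with_mult hL K lam hLS hM (re M θ) (by
      intro t
      by_cases ht : lam < #(Fib L M t)
      · right
        refine ⟨ht, ?_⟩
        simp only [re, if_pos ht]
        exact hlt.trans hθ
      · left
        simp only [re, if_neg ht])
    refine ⟨Q, iQ, hQ1, hQ2, ?_⟩
    rw [hQ3]
    obtain ⟨t0, ht0⟩ := E1 M hMbig
    apply sum_eq_of_bounds _ θ (2 ^ lam) h2 hT hθ _ t0
    · simp only [re, if_pos ht0]
    · intro t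
      by_cases ht : lam < #(Fib L M t)
      · simp only [re, if_pos ht]; exact le_rfl
      · simp only [re, if_neg ht]
        exact (not_lt.1 ht).trans (hlt.trans hθ).le
  -- E4 : at most one big colour
  have E4 : ∀ (M : Type u) [L.Structure M], K.mem M → 2 ^ lam < #M → ∀ t1 t2,
      lam < #(Fib L M t1) → lam < #(Fib L M t2) → t1 = t2 := by
    intro M _ hM hMbig t1 t2 ht1 ht2
    by_contra hne
    obtain ⟨Q, iQ, hQ1, hQ2, hQ3⟩ := E2 M hM hMbig κ hκ
    let c' : Set (L.Relations 1) → Cardinal.{u} :=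
      fun t => if t = t1 then Order.succ lam else re M κ t
    have hsucc : Order.succ lam ≤ 2 ^ lam := Order.succ_le_of_lt hlt
    obtain ⟨Q', iQ', hQ1', hQ2', hQ3'⟩ := exists_model_with_mult hL K lam hLS hM c' (by
      intro t
      by_cases htt : t = t1
      · right
        subst htt
        refine ⟨ht1, ?_⟩
        simp only [c', if_true]
        exact Order.lt_succ lam
      · simp only [c', if_neg htt]
        by_cases ht : lam < #(Fib L M t)
        · right
          refine ⟨ht, ?_⟩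
          simp only [re, if_pos ht]
          exact hlt.trans hκ
        · left
          simp only [re, if_neg ht])
    have hQ'card : #Q' = κ := by
      rw [hQ3']
      apply sum_eq_of_bounds _ κ (2 ^ lam) h2 hT hκ _ t2
      · simp only [c', if_neg (Ne.symm hne), re, if_pos ht2]
      · intro t
        by_cases htt : t = t1
        · simp only [c', if_pos htt]
          exact hsucc.trans hκ.le
        · simp only [c', if_neg htt]
          by_cases ht : lam < #(Fib L M t)
          · simp only [re, if_pos ht]; exact le_rfl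
          · simp only [re, if_neg ht]
            exact (not_lt.1 ht).trans (hlt.trans hκ).le
    obtain ⟨e⟩ := hcat.2 Q Q' hQ1 hQ1' hQ3 hQ'card
    have := mk_fib_equiv e t1
    rw [hQ2, hQ2'] at this
    simp only [re, if_pos ht1, c', if_true] at this
    rw [this] at hκ
    exact absurd hκ (not_lt.2 hsucc)
  -- E5 : the big colour has full multiplicity
  have E5 : ∀ (M : Type u) [L.Structure M], K.mem M → 2 ^ lam < #M → ∀ t0,
      lam < #(Fib L M t0) → #(Fib L M t0) = #M := by
    intro M _ hM hMbig t0 ht0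
    apply le_antisymm
    · exact Cardinal.mk_subtype_le _
    · have hle : #M ≤ 2 ^ lam * #(Fib L M t0) := by
        conv_lhs => rw [mk_eq_sum_fib (L := L) M]
        calc Cardinal.sum (fun t => #(Fib L M t))
            ≤ Cardinal.sum (fun _ : Set (L.Relations 1) => #(Fib L M t0)) := by
              apply Cardinal.sum_le_sum
              intro t
              by_cases ht : lam < #(Fib L M t)
              · rw [E4 M hM hMbig t t0 ht ht0]
              · exact (not_lt.1 ht).trans ht0.le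
          _ = #(Set (L.Relations 1)) * #(Fib L M t0) := Cardinal.sum_const' _ _
          _ ≤ 2 ^ lam * #(Fib L M t0) := by gcongr
      rw [Cardinal.mul_eq_max h2 (hlam.trans ht0.le)] at hle
      rcases le_total (2 ^ lam) #(Fib L M t0) with h | h
      · rwa [max_eq_right h] at hle
      · rw [max_eq_left h] at hle
        exact absurd hMbig (not_lt.2 hle)
  obtain ⟨⟨M0, iM0, hM0, hM0card⟩, huniq⟩ := hcat
  refine ⟨?_, ?_⟩
  · obtain ⟨Q, iQ, hQ1, -, hQ3⟩ := E2 M0 hM0 (by rw [hM0card]; exact hκ) κ' hκ'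
    exact ⟨Q, iQ, hQ1, hQ3⟩
  · intro M1 M2 _ _ hM1 hM2 hc1 hc2
    have hb1 : 2 ^ lam < #M1 := by rw [hc1]; exact hκ'
    have hb2 : 2 ^ lam < #M2 := by rw [hc2]; exact hκ'
    obtain ⟨Q1, iQ1, hQ1, hQ1f, hQ1c⟩ := E2 M1 hM1 hb1 κ hκ
    obtain ⟨Q2, iQ2, hQ2, hQ2f, hQ2c⟩ := E2 M2 hM2 hb2 κ hκ
    obtain ⟨e⟩ := huniq Q1 Q2 hQ1 hQ2 hQ1c hQ2c
    have hre : ∀ t, re M1 κ t = re M2 κ t := by
      intro t
      rw [← hQ1f, ← hQ2f]
      exact mk_fib_equiv e t
    apply iso_of_fib hL
    intro t
    have := hre t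
    by_cases ht1 : lam < #(Fib L M1 t) <;> by_cases ht2 : lam < #(Fib L M2 t)
    · rw [E5 M1 hM1 hb1 t ht1, E5 M2 hM2 hb2 t ht2, hc1, hc2]
    · simp only [re, if_pos ht1, if_neg ht2] at this
      rw [← this] at ht2
      exact absurd (hlt.trans hκ) ht2
    · simp only [re, if_neg ht1, if_pos ht2] at this
      rw [this] at ht1
      exact absurd (hlt.trans hκ) ht1
    · simpa only [re, if_neg ht1, if_neg ht2] using this

end Vale.Agent.P307
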